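import Vale.Agent.CK.Final

open Real Vale.Agent.P322

/-- The Courtade-Kumar conjecture: for every `n`, every Boolean function `f` on `n` bits (balanced or
not) and every crossover probability `0 < ε ≤ 1/2`, the mutual information (in bits) satisfies
`I(f X; Y) ≤ 1 - h₂ ε`, where `h₂ ε = binEntropy ε / log 2`. -/
theorem Vale.Agent.Results.P322.CourtadeKumar.result {n : ℕ} (f : (Fin n → Bool) → Bool) {ε : ℝ}
    (h0 : 0 < ε) (h1 : ε ≤ 1 / 2) :
    mutualInfo f ε ≤ 1 - binEntropy ε / log 2 :=
  Vale.Agent.CK.ck_full f h0 h1
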