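import Vale.Agent.CK.FinalZero

open Real Vale.Agent.P322

/-- The Courtade-Kumar conjecture, exactly as posed: for every `n`, every Boolean function `f` on
`n` bits and every crossover probability `ε ∈ [0, 1/2]`, the mutual information (in bits) satisfies
`I(f X; Y) ≤ 1 - h₂ ε`, where `h₂ ε = binEntropy ε / log 2`. -/
theorem Vale.Agent.Results.P322.CourtadeKumarClosed.result {n : ℕ} (f : (Fin n → Bool) → Bool)
    {ε : ℝ} (h0 : 0 ≤ ε) (h1 : ε ≤ 1 / 2) :
    mutualInfo f ε ≤ 1 - binEntropy ε / log 2 :=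
  Vale.Agent.CK.ck_full_closed f h0 h1
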