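import Vale.Agent.P322.Clos

open Real Vale.Agent.P322

/-- The Courtade-Kumar inequality at low noise: for every `n`, every Boolean function `f` on `n`
bits (balanced or not) and every crossover probability `0 < ε ≤ 10⁻¹⁰`, the mutual information (in
bits) satisfies `I(f X; Y) ≤ 1 - h₂ ε`, where `h₂ ε = binEntropy ε / log 2`. -/
theorem Vale.Agent.Results.P322.ExactLowNoise.result {n : ℕ} (f : (Fin n → Bool) → Bool) {ε : ℝ}
    (h0 : 0 < ε) (hs : ε ≤ 1 / 10 ^ 10) :
    mutualInfo f ε ≤ 1 - binEntropy ε / log 2 :=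
  mutualInfo_le_tiny f h0 hs
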