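import Vale.Agent.P322.Final

open Real Vale.Agent.P322

/-- Dimension-free low-noise bound towards the Courtade-Kumar conjecture: for every Boolean
function on `n` bits and every crossover probability `0 < ε ≤ 1/e`, the mutual information (in
bits) satisfies `I(f X; Y) ≤ 1 - (ε / log 2) (log (1/ε) - log log (1/ε) - 10/3)`; for balanced `f`
the constant `-10/3` improves to `log (3/5)`. Since `h₂ ε = (ε / log 2) (log (1/ε) + O(1))`, this is
`I ≤ 1 - (1 - o(1)) h₂ ε` as `ε → 0`, uniformly in `n` and `f`. -/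
theorem Vale.Agent.Results.P322.LowNoiseSharp.result {n : ℕ} (f : (Fin n → Bool) → Bool) {ε : ℝ}
    (h0 : 0 < ε) (h1 : ε ≤ exp (-1)) :
    mutualInfo f ε ≤ 1 - ε / log 2 * (log (1 / ε) - log (log (1 / ε)) - 10 / 3) ∧
      (∑ x, sgnF f x = 0 →
        mutualInfo f ε ≤ 1 - ε / log 2 * (log (1 / ε) - log (log (1 / ε)) + log (3 / 5))) :=
  ⟨low_noise_all f h0 h1, fun hf => low_noise_balanced f hf h0 h1⟩
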